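import Vale.Agent.P050.H687.Spec

/-!
# P050 [CLO]: FACT1, the density of `H`
-/

set_option linter.unusedSectionVars false

namespace Vale.Agent.P050.H410

open Finset Vale.Agent.P050.Lev Vale.Agent.P050.Tmpl Vale.Agent.P050.H177 Vale.Agent.P050.H687

open Classical in
/-- the combined configuration -/
noncomputable def zz {V U : Type} [Fintype V] [DecidableEq V] (K : Finset V) (τ : V → Bool)
    (r x y : V → U) (v : V) : U :=
  if v ∈ K then r v else if τ v = false then x v else y v

theorem pointwise {V U : Type} [Fintype V] [DecidableEq V] (H : SimpleGraph V) (s : V → Bool)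
    (W : U → U → ℝ) (K : Finset V) (τ : V → Bool) (r x y : V → U) :
    aw H s W K r * (bw H s W K (pt τ K false) r x * (bw H s W K (pt τ K true) r y *
      dw H s W (pt τ K false) (pt τ K true) x y)) =
      ∏ u, ∏ v, ed H s W u v (zz K τ r x y u) (zz K τ r x y v) := by
  unfold aw bw dw
  simp only [← Finset.prod_mul_distrib]
  refine Finset.prod_congr rfl fun u _ => Finset.prod_congr rfl fun v _ => ?_
  by_cases hu : u ∈ K <;> by_cases hv : v ∈ K <;> cases hτu : τ u <;> cases hτv : τ v <;>
    simp [pt, zz, hu, hv, hτu, hτv]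

theorem edges {V U : Type} [Fintype V] [DecidableEq V] (H : SimpleGraph V) (s : V → Bool)
    (W : U → U → ℝ) (z : V → U) :
    ∏ e ∈ sideEdges H s, W (z e.1) (z e.2) = ∏ u, ∏ v, ed H s W u v (z u) (z v) := by
  unfold sideEdges ed
  rw [Finset.prod_filter, Fintype.prod_prod_type]

/-- [FACT1] -/
theorem fact1 (hM : MargStmt) : FactStmt := by
  intro V U _ _ _ m W H s K τ hm
  have h1 := hM (V ⊕ (V ⊕ V)) V U
    (fun v => if v ∈ K then Sum.inl v else if τ v = false then Sum.inr (Sum.inl v)
      else Sum.inr (Sum.inr v))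
    (fun i => m (s (Sum.elim id (Sum.elim id id) i)))
    (fun z => ∏ e ∈ sideEdges H s, W (z e.1) (z e.2)) ?_ (fun i => hm _)
  · have h2 : ∀ v : V, (fun i => m (s (Sum.elim id (Sum.elim id id) i)))
        (if v ∈ K then Sum.inl v else if τ v = false then Sum.inr (Sum.inl v)
          else Sum.inr (Sum.inr v) : V ⊕ (V ⊕ V)) = m (s v) := by
      intro v
      split_ifs <;> rfl
    simp only [h2] at h1
    rw [← h1]
    rw [← (Equiv.sumArrowEquivProdArrow V (V ⊕ V) U).symm.sum_comp, Fintype.sum_prod_type]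
    refine Finset.sum_congr rfl fun r _ => ?_
    rw [← (Equiv.sumArrowEquivProdArrow V V U).symm.sum_comp, Fintype.sum_prod_type,
      Finset.mul_sum]
    refine Finset.sum_congr rfl fun x _ => ?_
    rw [Finset.mul_sum, Finset.mul_sum]
    refine Finset.sum_congr rfl fun y _ => ?_
    have h3 : ∀ v : V, (Equiv.sumArrowEquivProdArrow V (V ⊕ V) U).symm
        (r, (Equiv.sumArrowEquivProdArrow V V U).symm (x, y))
        (if v ∈ K then Sum.inl v else if τ v = false then Sum.inr (Sum.inl v)
          else Sum.inr (Sum.inr v)) = zz K τ r x y v := by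
      intro v
      unfold zz
      split_ifs <;> rfl
    simp only [h3]
    rw [edges, ← pointwise, Fintype.prod_sum_type, Fintype.prod_sum_type]
    have h4 : ∏ v, m (s (Sum.elim id (Sum.elim id id) (Sum.inl v : V ⊕ (V ⊕ V))))
        ((Equiv.sumArrowEquivProdArrow V (V ⊕ V) U).symm
          (r, (Equiv.sumArrowEquivProdArrow V V U).symm (x, y)) (Sum.inl v)) = pm s m r := rfl
    have h5 : ∏ v, m (s (Sum.elim id (Sum.elim id id) (Sum.inr (Sum.inl v) : V ⊕ (V ⊕ V))))
        ((Equiv.sumArrowEquivProdArrow V (V ⊕ V) U).symm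
          (r, (Equiv.sumArrowEquivProdArrow V V U).symm (x, y)) (Sum.inr (Sum.inl v))) =
        pm s m x := rfl
    have h6 : ∏ v, m (s (Sum.elim id (Sum.elim id id) (Sum.inr (Sum.inr v) : V ⊕ (V ⊕ V))))
        ((Equiv.sumArrowEquivProdArrow V (V ⊕ V) U).symm
          (r, (Equiv.sumArrowEquivProdArrow V V U).symm (x, y)) (Sum.inr (Sum.inr v))) =
        pm s m y := rfl
    rw [h4, h5, h6]
    ring
  · intro u v huv
    simp only at huv
    split_ifs at huv <;> simp_all

end Vale.Agent.P050.H410
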